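import Vale.Agent.P280.N.Defs

/-! P280, helper63, route Y: the hypotheses without independence and without multiplicity one. -/

open DirectSum Vale.Agent.P280.T Vale.Agent.P280.H127

namespace Vale.Agent.P280.H63Y

open Vale.Agent.P280.N

variable {r : ℕ} {R : Type} [CommRing R] [Algebra ℂ R]

/-- The hypotheses: isolated fixed points, maximal torus. -/
structure Hyp (𝒜 : ℕ × (Fin r → ℤ) → Submodule ℂ R) : Prop where
  hX : IsTorusManifold 𝒜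
  hN : NefOnRationalCurves 𝒜
  iso : ∀ x ν, ¬ IsVertex 𝒜 x → IsFixed 𝒜 x ν → ¬ TangentWeight 𝒜 x ν 0
  tor : ∀ D : Derivation ℂ R R, (∀ d m, ∀ h ∈ 𝒜 (d, m), D h ∈ 𝒜 (d, m)) →
    ∃ (α : ℂ) (β : (Fin r → ℤ) →+ ℂ), ∀ d m, ∀ h ∈ 𝒜 (d, m), ∃ n : ℕ,
      (fun x : R => D x - ((d : ℂ) * α + β m) • x)^[n] h = 0

end Vale.Agent.P280.H63Y
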