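import Vale.Agent.P280.N.A06
import Vale.Agent.P280.H63Y.A05
import Vale.Agent.P280.H63Y.Defs
open DirectSum Vale.Agent.P280.T Vale.Agent.P280.H127

namespace Vale.Agent.P280.H63Y

open Vale.Agent.P280.N

variable {r : ℕ} {R : Type} [CommRing R] [IsDomain R] [Algebra ℂ R]
  {𝒜 : ℕ × (Fin r → ℤ) → Submodule ℂ R} [GradedAlgebra 𝒜]

/-- A06 (LF1). -/
theorem lf1 (H : Hyp 𝒜) (y : FP 𝒜) (l : (Fin r → ℤ) →+ ℤ) (hl : Pos l y) {d : ℤ}
    {m : Fin r → ℤ} {x : FractionRing R} (hx : HK 𝒜 d m x) (hr : Rg y.q x)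
    (hm : l m < d * l y.ν) : x = 0 := by
  have := noeth H.hX
  have hF := fix_of_isFixed y.fix
  obtain ⟨n, u, wt, G, hn⟩ := exists_params_T H.hX y.nv hF
  have hwt : ∀ i, 0 ≤ l (wt i) := by
    intro i
    by_cases h0 : wt i = 0
    · rw [h0, map_zero]
    · exact hl _ (tangentWeight_of_wt H.hX y.fix G hn h0)
  obtain ⟨a, s, hs, e⟩ := hr
  refine H674.zero_of_regF hF G (A06.homK hx y.ν) ⟨s, hs, a, e⟩ ?_
  intro k hk
  have h1 := congrArg l hk
  rw [map_sub, map_zsmul, map_sum] at h1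
  have h2 : 0 ≤ ∑ i, l (k i • wt i) := Finset.sum_nonneg fun i _ => by
    rw [map_nsmul]
    exact nsmul_nonneg (hwt i) _
  rw [← h1, smul_eq_mul] at h2
  linarith

end Vale.Agent.P280.H63Y
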