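import Vale.Agent.P280.H490.CurveU
import Vale.Agent.P280.H63Y.Lift
import Vale.Agent.P280.H63Y.Defs
open DirectSum Vale.Agent.P280.T Vale.Agent.P280.H127

namespace Vale.Agent.P280.H63Y

open Vale.Agent.P280.N Vale.Agent.P280.H490

open Vale.Agent.P280.N

variable {r : ℕ} {R : Type} [CommRing R] [IsDomain R] [Algebra ℂ R]
  {𝒜 : ℕ × (Fin r → ℤ) → Submodule ℂ R} [GradedAlgebra 𝒜]

/-- The direction of a curve is not zero. -/
theorem ne_zero_of_curve (H : Hyp 𝒜) {y y' : FP 𝒜} {a : Fin r → ℤ} {n : ℕ}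
    {φ : R →ₐ[ℂ] Polynomial ℂ} (hφ : Curve y y' a n φ) : a ≠ 0 := by
  intro ha
  exact H.iso y.q y.ν y.nv y.fix (by rw [← ha]; exact hφ.ya)

/-- Nefness along the curve: a tangent vector at `y'` of weight `lam` extends along the curve. -/
theorem exists_lift (H : Hyp 𝒜) {y y' : FP 𝒜} {a : Fin r → ℤ} {n : ℕ}
    {φ : R →ₐ[ℂ] Polynomial ℂ} (hφ : Curve y y' a n φ) {lam : Fin r → ℤ} {t : R →ₗ[ℂ] ℂ}
    (ht : IsTangent y'.q t) (htw : HasWeight 𝒜 y'.ν lam t) :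
    ∃ δ : R →ₗ[ℂ] Polynomial ℂ, (∀ x z, δ (x * z) = φ x * δ z + φ z * δ x) ∧
      (∀ d m, ∀ h ∈ 𝒜 (d, m), δ h ≠ 0 → ∃ i : ℕ, i ≤ d * n ∧ m = d • y.ν + i • a + lam ∧
        ∃ c : ℂ, δ h = Polynomial.C c * Polynomial.X ^ i) ∧
      ∀ d m, ∀ h ∈ 𝒜 (d, m), (δ h).coeff (d * n) = t h := by
  have ha := ne_zero_of_curve H hφ
  obtain ⟨δ, hδ, hδ1, hδ2⟩ := exists_der H hφ ht
  obtain ⟨ε, hε, hε1, hε0⟩ := exists_part hφ ha lam hδ
  refine ⟨ε, hε, ?_, ?_⟩
  · intro d m h hh hne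
    by_cases hex : ∃ k : ℕ, m = d • y.ν + k • a + lam
    · obtain ⟨k, hk⟩ := hex
      have h1 := hε1 d m h hh k hk
      refine ⟨k, ?_, hk, _, h1⟩
      by_contra hlt
      apply hne
      rw [h1, hδ1 d m h hh k (not_le.1 hlt), Polynomial.C_0, zero_mul]
    · push Not at hex
      exact absurd (hε0 d m hex h hh) hne
  · intro d m h hh
    by_cases hm : m = d • y.ν + (d * n) • a + lam
    · rw [hε1 d m h hh (d * n) hm, Polynomial.coeff_C_mul_X_pow, if_pos rfl, hδ2 d m h hh]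
    · have h0 : t h = 0 := by
        by_contra hne
        apply hm
        rw [htw d m h hh hne, hφ.nu, smul_add, mul_smul]
      rw [h0]
      by_cases hex : ∃ k : ℕ, m = d • y.ν + k • a + lam
      · obtain ⟨k, hk⟩ := hex
        rw [hε1 d m h hh k hk, Polynomial.coeff_C_mul_X_pow, if_neg]
        rintro rfl
        exact hm hk
      · push Not at hex
        rw [hε0 d m hex h hh, Polynomial.coeff_zero]

end Vale.Agent.P280.H63Y
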