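import Vale.Agent.P280.H746.CurvePt
import Vale.Agent.P280.H63Y.Defs
open DirectSum Vale.Agent.P280.T Vale.Agent.P280.H127

namespace Vale.Agent.P280.H63Y

open Vale.Agent.P280.N Vale.Agent.P280.H746

open Vale.Agent.P280.N

variable {r : ℕ} {R : Type} [CommRing R] [IsDomain R] [Algebra ℂ R]
  {𝒜 : ℕ × (Fin r → ℤ) → Submodule ℂ R} [GradedAlgebra 𝒜]

omit [IsDomain R] [GradedAlgebra 𝒜] in
theorem Pi_ne {y : FP 𝒜} (H : Hyp 𝒜) {a : Fin r → ℤ} (ha : y.Pi a) : a ≠ 0 := by
  rintro rfl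
  exact H.iso _ _ y.nv y.fix ha

/-- **A point of the curve.** -/
theorem exists_pt (H : Hyp 𝒜) (y : FP 𝒜) {a : Fin r → ℤ} (ha : y.Pi a) :
    ∃ p : R →ₐ[ℂ] ℂ,
      (∀ w, (∀ i : ℕ, w ≠ i • a) → ∀ x ∈ coarse 𝒜 (rl (AddMonoidHom.id (Fin r → ℤ)) y.ν) w,
        p x = 0) ∧
      (∀ x ∈ coarse 𝒜 (rl (AddMonoidHom.id (Fin r → ℤ)) y.ν) 0, p x = y.q x) ∧
      ∃ z ∈ coarse 𝒜 (rl (AddMonoidHom.id (Fin r → ℤ)) y.ν) a, p z ≠ 0 := by
  classical
  have := noeth H.hX
  have hft := H.hX.finiteType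
  have ha0 := Pi_ne H ha
  have hF := fix_of_isFixed y.fix
  obtain ⟨n, u, wt, G, hn⟩ := exists_params_T H.hX y.nv hF
  obtain ⟨i1, hi1⟩ := wt_of_tangentWeight H.hX y.fix G hn ha
  set ℬ := coarse 𝒜 (rl (AddMonoidHom.id (Fin r → ℤ)) y.ν) with hℬ
  set S : Set R := {x | ∃ w, (∀ i : ℕ, w ≠ i • a) ∧ x ∈ ℬ w} ∪ {x | x ∈ ℬ 0 ∧ y.q x = 0} with hS
  set J : Set (Fin n) := {i | wt i ≠ a} with hJ
  set C : Set (Fin r → ℤ) := {w | w = 0 ∨ ∀ i : ℕ, w ≠ i • a} with hC
  have hCC : ∀ w ∈ C, ∀ i ∉ J, w - wt i ∈ C ∧ w - wt i ≠ 0 := by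
    intro w hw i hi
    have hi' : wt i = a := by
      by_contra h
      exact hi h
    rw [hi']
    rcases hw with rfl | hw
    · refine ⟨Or.inr fun k hk => ?_, ?_⟩
      · have h1 : ((-1 : ℤ)) • a = (k : ℤ) • a := by
          rw [natCast_zsmul, ← hk]; simp
        have h2 := smul_inj ha0 h1
        omega
      · rw [zero_sub]
        exact neg_ne_zero.mpr ha0
    · refine ⟨Or.inr fun k hk => hw (k + 1) ?_, fun h => hw 1 ?_⟩
      · rw [succ_nsmul, ← hk, sub_add_cancel]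
      · rw [one_smul, ← sub_eq_zero]; exact h
  have hsub : ∀ x ∈ Ideal.span S, ∃ t, y.q t = 1 ∧ t * x ∈ Ideal.span (u '' J) := by
    intro x hx
    refine Submodule.span_induction (p := fun x _ => ∃ t, y.q t = 1 ∧
      t * x ∈ Ideal.span (u '' J)) ?_ ?_ ?_ ?_ hx
    · rintro x (⟨w, hw, hxw⟩ | ⟨hx0, hx1⟩)
      · have hw0 : w ≠ 0 := by
          intro h
          exact hw 0 (by rw [h, zero_smul])
        exact lemmaA hF G (C := C) hCC (Or.inr hw) hxw (mem_mx.mpr (hF w hw0 x hxw))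
      · exact lemmaA hF G (C := C) hCC (Or.inl rfl) hx0 (mem_mx.mpr hx1)
    · exact ⟨1, map_one _, by rw [mul_zero]; exact Ideal.zero_mem _⟩
    · rintro x x' - - ⟨t, ht, h⟩ ⟨t', ht', h'⟩
      refine ⟨t * t', by rw [map_mul, ht, ht', mul_one], ?_⟩
      rw [mul_add]
      refine Ideal.add_mem _ ?_ ?_
      · rw [mul_comm t t', mul_assoc]; exact Ideal.mul_mem_left _ _ h
      · rw [mul_assoc]; exact Ideal.mul_mem_left _ _ h'
    · rintro b x - ⟨t, ht, h⟩
      refine ⟨t, ht, ?_⟩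
      rw [smul_eq_mul, mul_left_comm]
      exact Ideal.mul_mem_left _ _ h
  -- `z` is not in the radical
  have hz : u i1 ∉ (Ideal.span S).radical := by
    rintro ⟨k, hk⟩
    obtain ⟨t, ht, h⟩ := hsub _ hk
    obtain ⟨s, -, hs1, hs⟩ := G.gen
    set T : Finset R := (Finset.univ.erase i1).image u with hT
    have hTn : T.card < n := by
      refine Finset.card_image_le.trans_lt ?_
      rw [Finset.card_erase_of_mem (Finset.mem_univ i1), Finset.card_univ, Fintype.card_fin]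
      have := i1.pos
      omega
    have huT : ∀ i, i ≠ i1 → u i ∈ Ideal.span (T : Set R) := fun i hi =>
      Ideal.subset_span (by
        rw [hT, Finset.coe_image]
        exact ⟨i, by simpa using hi, rfl⟩)
    have hJT : Ideal.span (u '' J) ≤ Ideal.span (T : Set R) := by
      rw [Ideal.span_le]
      rintro _ ⟨i, hi, rfl⟩
      exact huT i (by rintro rfl; exact hi hi1)
    have hmin : mx y.q ∈ (Ideal.span (T : Set R)).minimalPrimes := by
      refine ⟨⟨inferInstance, ?_⟩, ?_⟩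
      · rw [Ideal.span_le, hT, Finset.coe_image]
        rintro _ ⟨i, -, rfl⟩
        exact mem_mx.mpr (G.zero i)
      · rintro P ⟨hP, hTP⟩ hPq x hx
        have hnot : ∀ t : R, y.q t = 1 → t ∉ P := by
          intro t ht h2
          have h3 := mem_mx.mp (hPq h2)
          rw [ht] at h3
          exact one_ne_zero h3
        have hz1 : u i1 ∈ P := by
          rcases hP.mem_or_mem (hTP (hJT h)) with h2 | h2
          · exact absurd h2 (hnot t ht)
          · exact hP.mem_of_pow_mem _ h2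
        have hu : Ideal.span (Set.range u) ≤ P := by
          rw [Ideal.span_le]
          rintro _ ⟨i, rfl⟩
          by_cases hi : i = i1
          · rw [hi]; exact hz1
          · exact hTP (huT i hi)
        rcases hP.mem_or_mem (hu (hs x hx)) with h2 | h2
        · exact absurd h2 (hnot s hs1)
        · exact h2
    have h1 := Ideal.height_le_card_of_mem_minimalPrimes_span_finset hmin
    have h2 : (n : ℕ∞) ≤ T.card := hn.le.trans h1
    exact absurd (by exact_mod_cast h2 : n ≤ T.card) (not_le.mpr hTn)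
  obtain ⟨p, hp, hpz⟩ := exists_point hz
  refine ⟨p, fun w hw x hx => hp x (Ideal.subset_span (Or.inl ⟨w, hw, hx⟩)), fun x hx => ?_,
    u i1, hi1 ▸ G.hom i1, hpz⟩
  have h1 : x - algebraMap ℂ R (y.q x) ∈ ℬ 0 :=
    Submodule.sub_mem _ hx (SetLike.algebraMap_mem_graded ℬ (y.q x))
  have h2 := hp _ (Ideal.subset_span (Or.inr ⟨h1, by rw [map_sub, AlgHom.commutes]; simp⟩))
  rw [map_sub, AlgHom.commutes] at h2
  simpa [sub_eq_zero] using h2

end Vale.Agent.P280.H63Y
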