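import Vale.Agent.P280.N.C04
import Vale.Agent.P280.H63Y.C03
import Vale.Agent.P280.H63Y.Along
import Vale.Agent.P280.H63Y.Curve

/-! P280, helper63, route Y: extremal weights are not balanced. -/

open DirectSum Vale.Agent.P280.T Vale.Agent.P280.H127

namespace Vale.Agent.P280.H63Y

open Vale.Agent.P280.N Vale.Agent.P280.H490

variable {r : ℕ} {R : Type} [CommRing R] [IsDomain R] [Algebra ℂ R]
  {𝒜 : ℕ × (Fin r → ℤ) → Submodule ℂ R} [GradedAlgebra 𝒜]

/-- The direction of a curve. -/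
noncomputable def dirv (φ : R →ₐ[ℂ] Polynomial ℂ) : R →ₗ[ℂ] ℂ := (Polynomial.lcoeff ℂ 1).comp φ.toLinearMap

theorem dirv_apply (φ : R →ₐ[ℂ] Polynomial ℂ) (x : R) : dirv φ x = (φ x).coeff 1 := rfl

theorem dirv_facts {y y' : FP 𝒜} {a : Fin r → ℤ} {n : ℕ} {φ : R →ₐ[ℂ] Polynomial ℂ}
    (hφ : Curve y y' a n φ) : IsTangent y.q (dirv φ) ∧ HasWeight 𝒜 y.ν a (dirv φ) := by
  constructor
  · intro x z
    rw [dirv_apply, dirv_apply, dirv_apply, map_mul, Polynomial.mul_coeff_one, ← hφ.ev, ← hφ.ev,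
      ← Polynomial.coeff_zero_eq_eval_zero, ← Polynomial.coeff_zero_eq_eval_zero]
    ring
  · intro d m h hh hne
    rw [dirv_apply] at hne
    obtain ⟨i, -, hm, c, hc⟩ := form hφ hh
    have h0 : φ h ≠ 0 := fun h0 => hne (by rw [h0, Polynomial.coeff_zero])
    rw [hc, Polynomial.coeff_C_mul_X_pow] at hne
    have h1 : 1 = i := by
      by_contra h1
      exact hne (if_neg h1)
    rw [hm h0, ← h1, one_smul]

/-- A field which has the direction of the curve at its start induces the derivative. -/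
theorem field_along (H : Hyp 𝒜) {y y' : FP 𝒜} {a : Fin r → ℤ} {n : ℕ}
    {φ : R →ₐ[ℂ] Polynomial ℂ} (hφ : Curve y y' a n φ)
    (hno : ∀ k : ℕ, k ≠ 0 → ¬ y.Pi (a + (k : ℤ) • a)) {D : Derivation ℂ R R}
    (hD : ∀ d m, ∀ h ∈ 𝒜 (d, m), D h ∈ 𝒜 (d, m - a)) (hDv : ∀ h, y.q (D h) = dirv φ h) (x : R) :
    φ (D x) = Polynomial.derivative (φ x) := by
  have h1 := der_dir H hφ (δ := φ.toLinearMap.comp (D : R →ₗ[ℂ] R)) (by
      intro x z
      change φ (D (x * z)) = φ x * φ (D z) + φ z * φ (D x)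
      rw [Derivation.leibniz, smul_eq_mul, smul_eq_mul, map_add, map_mul, map_mul]) (by
      intro d m h hh hne
      change φ (D h) ≠ 0 at hne
      obtain ⟨i, -, hm, c, hc⟩ := form hφ (hD d m h hh)
      refine ⟨i, ?_, c, hc⟩
      rw [← hm hne, sub_add_cancel]) hno 1 (by
      intro x
      change (φ (D x)).coeff 0 = _
      rw [Polynomial.coeff_zero_eq_eval_zero, hφ.ev, hDv, dirv_apply, one_mul]) x
  rw [Polynomial.C_1, one_mul] at h1
  exact h1

/-- A field which induces the derivative vanishes at the end of the curve. -/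
theorem field_end {y y' : FP 𝒜} {a : Fin r → ℤ} {n : ℕ}
    {φ : R →ₐ[ℂ] Polynomial ℂ} (hφ : Curve y y' a n φ) {D : Derivation ℂ R R}
    (hD : ∀ d m, ∀ h ∈ 𝒜 (d, m), D h ∈ 𝒜 (d, m - a))
    (hφD : ∀ x, φ (D x) = Polynomial.derivative (φ x)) (x : R) : y'.q (D x) = 0 := by
  have key : y'.q.toLinearMap.comp (D : R →ₗ[ℂ] R) = 0 := by
    apply linearMap_ext_graded 𝒜
    rintro ⟨d, m⟩ h hh
    change y'.q (D h) = 0
    rw [← hφ.ev' d _ _ (hD d m h hh), hφD]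
    obtain ⟨i, hi, -, c, hc⟩ := form hφ hh
    rw [Polynomial.coeff_derivative, hc, Polynomial.coeff_C_mul_X_pow, if_neg (by omega), zero_mul]
  exact LinearMap.congr_fun key x

theorem key_symm {y y' : FP 𝒜} {a : Fin r → ℤ} {n : ℕ} {φ φ' : R →ₐ[ℂ] Polynomial ℂ}
    (hφ : Curve y y' a n φ)
    (key : ∀ d m, ∀ h ∈ 𝒜 (d, m), ∀ i : ℕ, i ≤ d * n → ∀ c : ℂ,
        φ h = Polynomial.C c * Polynomial.X ^ i →
        φ' h = Polynomial.C c * Polynomial.X ^ (d * n - i)) :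
    ∀ d m, ∀ h ∈ 𝒜 (d, m), ∀ i : ℕ, i ≤ d * n → ∀ c : ℂ,
        φ' h = Polynomial.C c * Polynomial.X ^ i →
        φ h = Polynomial.C c * Polynomial.X ^ (d * n - i) := by
  intro d m h hh i hi c hc
  obtain ⟨j, hj, -, e, he⟩ := form hφ hh
  have h1 := key d m h hh j hj e he
  rw [h1] at hc
  by_cases he0 : e = 0
  · subst he0
    rw [Polynomial.C_0, zero_mul] at hc he
    have h2 := congrArg (fun p : Polynomial ℂ => p.coeff i) hc
    simp only [Polynomial.coeff_zero, Polynomial.coeff_C_mul_X_pow, if_true] at h2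
    rw [he, ← h2, Polynomial.C_0, zero_mul]
  · have h2 := congrArg (fun p : Polynomial ℂ => p.coeff (d * n - j)) hc
    simp only [Polynomial.coeff_C_mul_X_pow, if_true] at h2
    by_cases h3 : d * n - j = i
    · rw [if_pos h3] at h2
      rw [he, h2, ← h3]
      congr 2
      omega
    · rw [if_neg h3] at h2
      exact absurd h2 he0

/-- The bracket at the start of the curve. -/
theorem bracket_start {y y' : FP 𝒜} {a : Fin r → ℤ} (ha : a ≠ 0) {n : ℕ}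
    {φ φ' : R →ₐ[ℂ] Polynomial ℂ} (hφ : Curve y y' a n φ)
    (key : ∀ d m, ∀ h ∈ 𝒜 (d, m), ∀ i : ℕ, i ≤ d * n → ∀ c : ℂ,
        φ h = Polynomial.C c * Polynomial.X ^ i →
        φ' h = Polynomial.C c * Polynomial.X ^ (d * n - i)) {D E : Derivation ℂ R R}
    (hDv : ∀ h, y.q (D h) = dirv φ h) (hE : ∀ d m, ∀ h ∈ 𝒜 (d, m), E h ∈ 𝒜 (d, m - (-a)))
    (hφE : ∀ x, φ' (E x) = Polynomial.derivative (φ' x)) (hEy : ∀ x, y.q (E x) = 0)
    {h : R} (hh : h ∈ 𝒜 (1, y.ν)) : y.q (⁅D, E⁆ h) = n * y.q h := by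
  rw [Derivation.commutator_apply, map_sub, hEy, sub_zero, hDv, dirv_apply]
  have hn := hφ.n1
  -- `φ h` is constant
  have h1 : φ h = Polynomial.C (y.q h) * Polynomial.X ^ 0 := by
    obtain ⟨i, -, hm, c, hc⟩ := form hφ hh
    by_cases h0 : φ h = 0
    · rw [← hφ.ev, h0, Polynomial.eval_zero, Polynomial.C_0, zero_mul]
    · have h2 := hm h0
      rw [one_smul, left_eq_add] at h2
      have h3 : i = 0 := by
        have h4 : (i : ℤ) • a = 0 := by rw [natCast_zsmul, h2]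
        have h5 := (smul_eq_zero.1 h4).resolve_right ha
        omega
      rw [h3] at hc
      rw [← hφ.ev, hc]
      simp
  have h2 := key 1 _ h hh 0 (Nat.zero_le _) _ h1
  have h3 := hφE h
  obtain ⟨j, hj, -, c, hc⟩ := form hφ (hE 1 _ h hh)
  have h4 := key 1 _ _ (hE 1 _ h hh) j hj c hc
  rw [h4, h2, Polynomial.derivative_C_mul_X_pow, one_mul, Nat.sub_zero] at h3
  rw [hc, Polynomial.coeff_C_mul_X_pow]
  have h5 := congrArg (fun p : Polynomial ℂ => p.coeff (n - 1)) h3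
  simp only [Polynomial.coeff_C_mul_X_pow, if_true] at h5
  have h6 := congrArg (fun p : Polynomial ℂ => p.coeff (n - j)) h3
  simp only [Polynomial.coeff_C_mul_X_pow, if_true] at h6
  rw [one_mul] at hj
  by_cases h7 : 1 = j
  · subst h7
    rw [if_pos rfl] at h5 ⊢
    rw [h5]
    ring
  · rw [if_neg h7]
    rw [if_neg (by omega)] at h5
    rw [mul_comm]
    exact h5

/-- Fields whose weight is larger than all tangent weights vanish. -/
theorem big_zero (H : Hyp 𝒜) {c : (Fin r → ℤ) →+ ℤ} (hc : ∀ μ, Wt 𝒜 μ → c μ ≠ 0)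
    {μ : Fin r → ℤ} (hpos : 0 < c μ) (hmax : ∀ ω, Wt 𝒜 ω → c ω < c μ) {G : Derivation ℂ R R}
    (hG : H93.IsHField 𝒜 μ G) : ∀ x, G x = 0 := by
  obtain ⟨p, hp⟩ := exists_pos H c hc
  have hμ0 : μ ≠ 0 := by
    rintro rfl
    rw [map_zero] at hpos
    exact lt_irrefl _ hpos
  have h1 : toVF G = 0 := c03_field_zero H hc hpos (fun ω hω _ => hmax ω hω) hp (toVF_glob G)
    (hv_toVF hG) (val_zero_of_not_pi H.hX hμ0 (hv_toVF hG) (toVF_glob G).rgV
      (fun h => lt_irrefl _ (hmax μ ⟨p, h⟩)))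
  intro x
  have h6 := congrArg (fun v : VF R => v (iK x)) h1
  change toVF G (iK x) = 0 at h6
  rwa [toVF_iK, iK_eq_zero] at h6

/-- The value of a field of weight zero at a fixed point. -/
theorem zero_value (H : Hyp 𝒜) (y : FP 𝒜) {S : Derivation ℂ R R}
    (hS : ∀ d m, ∀ h ∈ 𝒜 (d, m), S h ∈ 𝒜 (d, m)) :
    ∃ c : ℂ, ∀ (d : ℕ) (m : Fin r → ℤ), ∀ h ∈ 𝒜 (d, m), y.q (S h) = c * d * y.q h := by
  by_contra hcon
  push Not at hcon
  have hf0 : H93.IsHField 𝒜 0 S := fun d m h hh => by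
    rw [sub_zero]
    exact hS d m h hh
  exact H.iso y.q y.ν y.nv y.fix ⟨_, H224.isTangent_value y.q S,
    H224.hasWeight_value y.fix hf0, hcon⟩

/-- Extremal weights are not balanced. -/
theorem no_opp_ext (H : Hyp 𝒜) {χ : Fin r → ℤ} {c : (Fin r → ℤ) →+ ℤ}
    (hc : ∀ μ, Wt 𝒜 μ → c μ ≠ 0) (hpos : 0 < c χ) (hmax : ∀ ω, Wt 𝒜 ω → c ω ≤ c χ) {z : FP 𝒜}
    (h1 : z.Pi χ) (h2 : z.Pi (-χ)) : False := by
  have hmin : ∀ ω, Wt 𝒜 ω → -(c χ) ≤ c ω := fun ω hω => neg_max H c hpos hmax ω hω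
  have hχ0 : χ ≠ 0 := by
    rintro rfl
    rw [map_zero] at hpos
    exact lt_irrefl _ hpos
  have hc' : ∀ μ, Wt 𝒜 μ → (-c) μ ≠ 0 := fun μ hμ => by
    rw [AddMonoidHom.neg_apply]
    exact neg_ne_zero.2 (hc μ hμ)
  have hL : Liftable 𝒜 χ := by
    obtain ⟨p, hp⟩ := exists_pos H c hc
    exact liftable_of_isExtremal H.hX H.hN ⟨c, p.q, p.ν, p.nv, p.fix, fun ω hω =>
      ⟨lt_of_le_of_ne (hp ω hω) (Ne.symm (hc ω ⟨p, hω⟩)), hmax ω ⟨p, hω⟩⟩⟩
  have hL' : Liftable 𝒜 (-χ) := by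
    obtain ⟨p, hp⟩ := exists_pos H (-c) hc'
    refine liftable_of_isExtremal H.hX H.hN ⟨-c, p.q, p.ν, p.nv, p.fix, fun ω hω =>
      ⟨lt_of_le_of_ne (hp ω hω) (Ne.symm (hc' ω ⟨p, hω⟩)), ?_⟩⟩
    have := hmin ω ⟨p, hω⟩
    rw [AddMonoidHom.neg_apply, AddMonoidHom.neg_apply, map_neg]
    linarith
  -- the curve
  obtain ⟨z', n, φ, hφ⟩ := exists_curve_main H z h1 (fun y' j j' hj hj' h3 h4 => by
    have key : ∀ j : ℕ, 1 ≤ j → y'.Pi (-(j • χ)) → j = 1 := by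
      intro j hj h
      have h5 := hmin _ ⟨y', h⟩
      rw [map_neg, map_nsmul, nsmul_eq_mul] at h5
      by_contra hne
      have h6 : (2 : ℤ) ≤ j := by exact_mod_cast (by omega : 2 ≤ j)
      nlinarith
    rw [key j hj h3, key j' hj' h4])
  obtain ⟨φ', hφ', key⟩ := exists_rev H hφ
  have key' := key_symm hφ key
  -- the fields
  obtain ⟨hv, hvw⟩ := dirv_facts hφ
  obtain ⟨D, hD, hDv⟩ := hL z.q z.ν z.nv z.fix h1 _ hv hvw
  obtain ⟨hv', hvw'⟩ := dirv_facts hφ'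
  obtain ⟨E, hE, hEv⟩ := hL' z'.q z'.ν z'.nv z'.fix hφ'.ya _ hv' hvw'
  have hφD := field_along H hφ (fun k hk h => by
    have h3 := hmax _ ⟨z, h⟩
    rw [map_add, map_zsmul, smul_eq_mul] at h3
    have h4 : (1 : ℤ) ≤ k := by exact_mod_cast (by omega : 1 ≤ k)
    nlinarith) hD hDv
  have hφE := field_along H hφ' (fun k hk h => by
    have h3 := hmin _ ⟨z', h⟩
    rw [map_add, map_zsmul, smul_eq_mul, map_neg] at h3
    have h4 : (1 : ℤ) ≤ k := by exact_mod_cast (by omega : 1 ≤ k)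
    nlinarith) hE hEv
  have hEz := field_end hφ' hE hφE
  have hDz' := field_end hφ hD hφD
  have hb1 : ∀ h ∈ 𝒜 (1, z.ν), z.q (⁅D, E⁆ h) = n * z.q h := fun h hh =>
    bracket_start hχ0 hφ key hDv hE hφE hEz hh
  have hb2 : ∀ h ∈ 𝒜 (1, z'.ν), z'.q (⁅E, D⁆ h) = n * z'.q h := fun h hh =>
    bracket_start (neg_ne_zero.2 hχ0) hφ' key' hEv (by rw [neg_neg]; exact hD) hφD hDz' hh
  have hn := hφ.n1
  -- the bracket
  have hpres : ∀ d m, ∀ h ∈ 𝒜 (d, m), ⁅D, E⁆ h ∈ 𝒜 (d, m) := by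
    intro d m h hh
    rw [Derivation.commutator_apply]
    have h3 := hD _ _ _ (hE d m h hh)
    have h4 := hE _ _ _ (hD d m h hh)
    rw [sub_neg_eq_add, add_sub_cancel_right] at h3
    rw [sub_neg_eq_add, sub_add_cancel] at h4
    exact Submodule.sub_mem _ h3 h4
  obtain ⟨α, β, hT⟩ := H.tor ⁅D, E⁆ hpres
  -- eigenvalues
  have eig : ∀ (u : R →ₗ[ℂ] ℂ) (d : ℕ) (m : Fin r → ℤ) (e : ℂ),
      (∀ h ∈ 𝒜 (d, m), u (⁅D, E⁆ h) = e * u h) → ∀ h ∈ 𝒜 (d, m), u h ≠ 0 →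
      e = (d : ℂ) * α + β m := by
    intro u d m e hu h hh hne
    obtain ⟨N, hN⟩ := hT d m h hh
    have h3 : ∀ N : ℕ, (fun x : R => ⁅D, E⁆ x - ((d : ℂ) * α + β m) • x)^[N] h ∈ 𝒜 (d, m) ∧
        u ((fun x : R => ⁅D, E⁆ x - ((d : ℂ) * α + β m) • x)^[N] h) =
          (e - ((d : ℂ) * α + β m)) ^ N * u h := by
      intro N
      induction N with
      | zero => exact ⟨hh, by simp⟩
      | succ N ih =>
        rw [Function.iterate_succ_apply']
        refine ⟨Submodule.sub_mem _ (hpres _ _ _ ih.1) (Submodule.smul_mem _ _ ih.1), ?_⟩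
        rw [map_sub, map_smul, hu _ ih.1, ih.2, smul_eq_mul, pow_succ]
        ring
    have h4 := (h3 N).2
    rw [hN, map_zero] at h4
    by_contra h5
    exact mul_ne_zero (pow_ne_zero N (sub_ne_zero.2 h5)) hne h4.symm
  obtain ⟨f, hf, hfne⟩ := exists_deg_one_ne H.hX.gen z.nv z.fix
  obtain ⟨f', hf', hfne'⟩ := exists_deg_one_ne H.hX.gen z'.nv z'.fix
  have e1 : (n : ℂ) = ((1 : ℕ) : ℂ) * α + β z.ν := eig z.q.toLinearMap 1 z.ν n hb1 f hf hfne
  have e2 : -(n : ℂ) = ((1 : ℕ) : ℂ) * α + β z'.ν := by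
    refine eig z'.q.toLinearMap 1 z'.ν (-(n : ℂ)) (fun h hh => ?_) f' hf' hfne'
    have h3 := hb2 h hh
    have h4 : ⁅D, E⁆ h = -(⁅E, D⁆ h) := by
      rw [Derivation.commutator_apply, Derivation.commutator_apply, neg_sub]
    change z'.q (⁅D, E⁆ h) = _ * z'.q h
    rw [h4, map_neg, h3, neg_mul]
  have hβ : β χ = -2 := by
    have h3 : β z'.ν = β z.ν + n * β χ := by
      rw [hφ.nu, map_add, map_nsmul, nsmul_eq_mul]
    have h4 : (n : ℂ) * (β χ + 2) = 0 := by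
      rw [h3] at e2
      linear_combination e1 - e2
    have h5 : (n : ℂ) ≠ 0 := by
      exact_mod_cast (by omega : n ≠ 0)
    have h6 := (mul_eq_zero.1 h4).resolve_left h5
    linear_combination h6
  -- the value of the bracket at `z`
  obtain ⟨e0, he0⟩ := zero_value H z hpres
  have he0n : e0 = n := by
    have h3 := he0 1 _ f hf
    rw [hb1 f hf, Nat.cast_one, mul_one] at h3
    exact (mul_right_cancel₀ hfne h3).symm
  -- the second field
  obtain ⟨w, hw, hww, hwne⟩ := h2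
  obtain ⟨W, hW, hWv⟩ := hL' z.q z.ν z.nv z.fix ⟨w, hw, hww, hwne⟩ w hw hww
  have hEW : ∀ x, ⁅E, W⁆ x = 0 := by
    have h3 : H93.IsHField 𝒜 (-χ + -χ) ⁅E, W⁆ := by
      intro d m h hh
      rw [Derivation.commutator_apply]
      have h4 := hE _ _ _ (hW d m h hh)
      have h5 := hW _ _ _ (hE d m h hh)
      rw [sub_sub] at h4 h5
      exact Submodule.sub_mem _ h4 h5
    refine big_zero H hc' ?_ (fun ω hω => ?_) h3
    · rw [AddMonoidHom.neg_apply, map_add, map_neg]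
      linarith
    · have := hmin ω hω
      rw [AddMonoidHom.neg_apply, AddMonoidHom.neg_apply, map_add, map_neg]
      linarith
  have hS : ∀ d m, ∀ h ∈ 𝒜 (d, m), ⁅D, W⁆ h ∈ 𝒜 (d, m) := by
    intro d m h hh
    rw [Derivation.commutator_apply]
    have h3 := hD _ _ _ (hW d m h hh)
    have h4 := hW _ _ _ (hD d m h hh)
    rw [sub_neg_eq_add, add_sub_cancel_right] at h3
    rw [sub_neg_eq_add, sub_add_cancel] at h4
    exact Submodule.sub_mem _ h3 h4
  obtain ⟨s0, hs0⟩ := zero_value H z hS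
  -- the relation at `z`
  have hrel : ∀ (d : ℕ) (m : Fin r → ℤ), ∀ h ∈ 𝒜 (d, m), w (⁅D, E⁆ h) = (n * d) * w h := by
    intro d m h hh
    have h3 : z.q (E (⁅D, W⁆ h)) = 0 := hEz _
    have h4 : z.q (⁅D, W⁆ (E h)) = 0 := by
      rw [hs0 d _ _ (hE d m h hh), hEz, mul_zero]
    have h5 : ⁅D, E⁆ (W h) - W (⁅D, E⁆ h) = ⁅D, W⁆ (E h) - E (⁅D, W⁆ h) := by
      have h6 := hEW (D h)
      have h7 := congrArg D (hEW h)
      rw [Derivation.commutator_apply] at h6 h7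
      rw [map_sub, map_zero] at h7
      simp only [Derivation.commutator_apply, map_sub]
      linear_combination h7 - h6
    have h8 := congrArg z.q h5
    rw [map_sub, map_sub, h3, h4, sub_zero, he0 d _ _ (hW d m h hh), he0n, hWv, hWv] at h8
    linear_combination -h8
  obtain ⟨d, m, h, hh, hne⟩ := hwne 0
  rw [zero_mul, zero_mul] at hne
  have h3 := eig w d m (n * d) (fun h hh => hrel d m h hh) h hh hne
  have h4 := hww d m h hh hne
  rw [h4, map_add, map_nsmul, map_neg, hβ, nsmul_eq_mul] at h3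
  rw [Nat.cast_one, one_mul] at e1
  have h5 : (2 : ℂ) = 0 := by
    rw [e1] at h3
    linear_combination -h3
  exact two_ne_zero h5

end Vale.Agent.P280.H63Y
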