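import Vale.Agent.P280.H63X.Fin
import Vale.Agent.P280.H63Y.NoOpp

/-! P280, helper63, route Y: the theorem on balanced weights; extremal ones are allowed. -/

open DirectSum Vale.Agent.P280.T Vale.Agent.P280.H127

namespace Vale.Agent.P280.H63Y

open Vale.Agent.P280.N Vale.Agent.P280.N2.F Vale.Agent.P280.H11

variable {r : ℕ} {R : Type} [CommRing R] [Algebra ℂ R]
  {𝒜 : ℕ × (Fin r → ℤ) → Submodule ℂ R} [GradedAlgebra 𝒜]

/-- The theorem: balanced weights (those which occur at some fixed point together with their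
opposites) are extremal, or have multiplicity one and do not occur with their doubles. -/
theorem final (hX : IsTorusManifold 𝒜) (hN : NefOnRationalCurves 𝒜)
    (hbal : ∀ y ξ χ, ¬ IsVertex 𝒜 y → IsFixed 𝒜 y ξ → TangentWeight 𝒜 y ξ χ →
      TangentWeight 𝒜 y ξ (-χ) →
      (∃ l : (Fin r → ℤ) →+ ℤ, ∀ x ν ω, ¬ IsVertex 𝒜 x → IsFixed 𝒜 x ν →
        TangentWeight 𝒜 x ν ω → l ω ≠ 0 ∧ l ω ≤ |l χ|) ∨
      ∀ x ν, ¬ IsVertex 𝒜 x → IsFixed 𝒜 x ν → TangentWeight 𝒜 x ν χ →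
      ¬ TangentWeight 𝒜 x ν (2 • χ) ∧
      ∀ v v' : R →ₗ[ℂ] ℂ, IsTangent x v → HasWeight 𝒜 ν χ v → IsTangent x v' →
        HasWeight 𝒜 ν χ v' → ∃ c c' : ℂ, (c ≠ 0 ∨ c' ≠ 0) ∧ ∀ h, c * v h + c' * v' h = 0) :
    (∀ χ : Fin r → ℤ, Liftable 𝒜 χ) ∧ IsHomogeneousManifold 𝒜 ∧ IsTransitive 𝒜 := by
  obtain ⟨r', 𝒜', hg, π, hr, ht⟩ := exists_maxTor hX
  have hdom := hX.domain
  have hiso : ∀ x ν, ¬ IsVertex 𝒜 x → IsFixed 𝒜 x ν → ¬ TangentWeight 𝒜 x ν 0 := by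
    intro x ν hx0 hx h
    rcases hbal x ν 0 hx0 hx h (by rw [neg_zero]; exact h) with ⟨l, hl⟩ | h1
    · exact (hl x ν 0 hx0 hx h).1 (map_zero l)
    · exact (h1 x ν hx0 hx h).1 (by rw [smul_zero]; exact h)
  have hX' := ref_torusManifold hr hX
  have hN' := ref_nef hr hN
  have hw : ∀ (y : FP 𝒜') (ω : Fin r' → ℤ), y.Pi ω → ¬ IsVertex 𝒜 y.q ∧ IsFixed 𝒜 y.q (π y.ν) ∧
      TangentWeight 𝒜 y.q (π y.ν) (π ω) := fun y ω h =>
    ⟨fun h => y.nv ((ref_vertex hr).2 h), ref_fixed hr y.fix, ref_weight hr h⟩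
  have H0 : Hyp 𝒜' :=
    { hX := hX'
      hN := hN'
      iso := fun x ν hx0 hx h => by
        obtain ⟨h1, h2, h3⟩ := hw ⟨x, ν, hx0, hx⟩ 0 h
        rw [map_zero] at h3
        exact hiso _ _ h1 h2 h3
      tor := ht }
  have H : N.Hyp 𝒜' := H63X.toN hX' hN' (fun y z χ h1 h2 h3 => by
    obtain ⟨a1, a2, k1⟩ := hw z χ h1
    obtain ⟨-, -, k2⟩ := hw z (-χ) h2
    obtain ⟨b1, b2, k3⟩ := hw y χ h3
    rw [map_neg] at k2
    rcases hbal z.q (π z.ν) (π χ) a1 a2 k1 k2 with ⟨l, hl⟩ | hk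
    · exfalso
      have hc : ∀ μ, Wt 𝒜' μ → (l.comp π) μ ≠ 0 ∧ (l.comp π) μ ≤ |(l.comp π) χ| := by
        rintro μ ⟨x, hx⟩
        obtain ⟨c1, c2, c3⟩ := hw x μ hx
        exact hl _ _ _ c1 c2 c3
      rcases lt_or_gt_of_ne (hc _ ⟨z, h1⟩).1 with h5 | h5
      · refine no_opp_ext H0 (c := l.comp π) (χ := -χ) (fun μ hμ => (hc μ hμ).1) ?_
          (fun μ hμ => ?_) h2 (by rw [neg_neg]; exact h1)
        · rw [map_neg]
          omega
        · rw [map_neg, ← abs_of_neg h5]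
          exact (hc μ hμ).2
      · refine no_opp_ext H0 (c := l.comp π) (fun μ hμ => (hc μ hμ).1) h5
          (fun μ hμ => ?_) h1 h2
        have h6 := (hc μ hμ).2
        rwa [abs_of_pos h5] at h6
    · obtain ⟨k4, k5⟩ := hk y.q (π y.ν) b1 b2 k3
      refine ⟨fun h4 => k4 ?_, fun v v' hv hw hv' hw' => k5 v v' hv (ref_hasWeight hr hw) hv'
        (ref_hasWeight hr hw')⟩
      have k6 := ref_weight hr h4
      rwa [map_nsmul] at k6) ht
  have hI' : ∀ lam : Fin r' → ℤ, Wt 𝒜' lam →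
      (∀ l : (Fin r' → ℤ) →+ ℤ, 0 < l lam → ∃ ω, Wt 𝒜' ω ∧ l lam < l ω) → Liftable 𝒜' lam :=
    fun lam _ hint => liftable_of_real fun z hz => Vale.Agent.P280.N2.real_interior H hint z hz
  refine ⟨fun χ => ?_, ref_back hr (homogeneous_of_int H hI')⟩
  by_cases hχ0 : χ = 0
  · subst hχ0
    intro x ν hx0 hx hχ
    exact absurd hχ (hiso x ν hx0 hx)
  · exact H267.ref_liftable hr hX H.hX hiso hχ0 fun χ' _ => liftable_of_int H hI' χ'

end Vale.Agent.P280.H63Y
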