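import Vale.Agent.P280.H63Y.NoOpp

/-! P280, helper63, route Y: extremal weights are not balanced; the one-parameter group need not
have isolated fixed points. -/

open DirectSum Vale.Agent.P280.T Vale.Agent.P280.H127

namespace Vale.Agent.P280.H63Y

open Vale.Agent.P280.N Vale.Agent.P280.H490

variable {r : ℕ} {R : Type} [CommRing R] [IsDomain R] [Algebra ℂ R]
  {𝒜 : ℕ × (Fin r → ℤ) → Submodule ℂ R} [GradedAlgebra 𝒜]

/-- Fields whose weight is larger than all tangent weights vanish, for any functional. -/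
theorem big_zero' (H : Hyp 𝒜) {c : (Fin r → ℤ) →+ ℤ} {μ : Fin r → ℤ}
    {B : ℤ} (hpos : B < c μ) (hB : 0 ≤ B) (hmax : ∀ ω, Wt 𝒜 ω → c ω ≤ B) {G : Derivation ℂ R R}
    (hG : H93.IsHField 𝒜 μ G) : ∀ x, G x = 0 := by
  obtain ⟨g, hg⟩ := H587.exists_generic (S := H587.wts 𝒜) (finite_weights H.hX)
  have hg0 : ∀ ω, Wt 𝒜 ω → g ω ≠ 0 := by
    rintro ω ⟨y, hy⟩ h0
    obtain ⟨h1, h2⟩ := H587.tangentWeight_mem H.hX y.nv y.fix hy
    have h3 : g (y.ν + ω) = g y.ν := by rw [map_add, h0, add_zero]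
    have h4 := hg h2 h1 h3
    exact c03_wt_ne_zero H ⟨y, hy⟩ (by
      have : y.ν + ω = y.ν + 0 := by rw [h4, add_zero]
      exact add_left_cancel this)
  obtain ⟨K, hK0, hK⟩ := c03_bound H g
  obtain ⟨M, hM⟩ : ∃ M : ℤ, M = K + |g μ| + 1 := ⟨_, rfl⟩
  have hgμ := neg_abs_le (g μ)
  have hgμ0 := abs_nonneg (g μ)
  have hMc : ∀ m, (M • c + g) m = M * c m + g m := fun m => by
    change M • c m + g m = _
    rw [smul_eq_mul]
  refine big_zero H (c := M • c + g) (fun ω hω => ?_) ?_ (fun ω hω => ?_) hG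
  · have h2 := abs_le.1 (hK ω hω)
    rw [hMc]
    intro h4
    rcases lt_trichotomy (c ω) 0 with h5 | h5 | h5
    · nlinarith
    · rw [h5, mul_zero, zero_add] at h4
      exact hg0 ω hω h4
    · nlinarith
  · rw [hMc]
    nlinarith
  · have h2 := abs_le.1 (hK ω hω)
    have h3 := hmax ω hω
    rw [hMc, hMc]
    nlinarith

/-- Extremal weights are not balanced. -/
theorem no_opp_ext' (H : Hyp 𝒜) {χ : Fin r → ℤ} (hL : Liftable 𝒜 χ) (hL' : Liftable 𝒜 (-χ))
    {c : (Fin r → ℤ) →+ ℤ} (hpos : 0 < c χ) (hmax : ∀ ω, Wt 𝒜 ω → c ω ≤ c χ) {z : FP 𝒜}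
    (h1 : z.Pi χ) (h2 : z.Pi (-χ)) : False := by
  have hmin : ∀ ω, Wt 𝒜 ω → -(c χ) ≤ c ω := fun ω hω => neg_max H c hpos hmax ω hω
  have hχ0 : χ ≠ 0 := by
    rintro rfl
    rw [map_zero] at hpos
    exact lt_irrefl _ hpos
  -- the curve
  obtain ⟨z', n, φ, hφ⟩ := exists_curve_main H z h1 (fun y' j j' hj hj' h3 h4 => by
    have key : ∀ j : ℕ, 1 ≤ j → y'.Pi (-(j • χ)) → j = 1 := by
      intro j hj h
      have h5 := hmin _ ⟨y', h⟩
      rw [map_neg, map_nsmul, nsmul_eq_mul] at h5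
      by_contra hne
      have h6 : (2 : ℤ) ≤ j := by exact_mod_cast (by omega : 2 ≤ j)
      nlinarith
    rw [key j hj h3, key j' hj' h4])
  obtain ⟨φ', hφ', key⟩ := exists_rev H hφ
  have key' := key_symm hφ key
  -- the fields
  obtain ⟨hv, hvw⟩ := dirv_facts hφ
  obtain ⟨D, hD, hDv⟩ := hL z.q z.ν z.nv z.fix h1 _ hv hvw
  obtain ⟨hv', hvw'⟩ := dirv_facts hφ'
  obtain ⟨E, hE, hEv⟩ := hL' z'.q z'.ν z'.nv z'.fix hφ'.ya _ hv' hvw'
  have hφD := field_along H hφ (fun k hk h => by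
    have h3 := hmax _ ⟨z, h⟩
    rw [map_add, map_zsmul, smul_eq_mul] at h3
    have h4 : (1 : ℤ) ≤ k := by exact_mod_cast (by omega : 1 ≤ k)
    nlinarith) hD hDv
  have hφE := field_along H hφ' (fun k hk h => by
    have h3 := hmin _ ⟨z', h⟩
    rw [map_add, map_zsmul, smul_eq_mul, map_neg] at h3
    have h4 : (1 : ℤ) ≤ k := by exact_mod_cast (by omega : 1 ≤ k)
    nlinarith) hE hEv
  have hEz := field_end hφ' hE hφE
  have hDz' := field_end hφ hD hφD
  have hb1 : ∀ h ∈ 𝒜 (1, z.ν), z.q (⁅D, E⁆ h) = n * z.q h := fun h hh =>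
    bracket_start hχ0 hφ key hDv hE hφE hEz hh
  have hb2 : ∀ h ∈ 𝒜 (1, z'.ν), z'.q (⁅E, D⁆ h) = n * z'.q h := fun h hh =>
    bracket_start (neg_ne_zero.2 hχ0) hφ' key' hEv (by rw [neg_neg]; exact hD) hφD hDz' hh
  have hn := hφ.n1
  -- the bracket
  have hpres : ∀ d m, ∀ h ∈ 𝒜 (d, m), ⁅D, E⁆ h ∈ 𝒜 (d, m) := by
    intro d m h hh
    rw [Derivation.commutator_apply]
    have h3 := hD _ _ _ (hE d m h hh)
    have h4 := hE _ _ _ (hD d m h hh)
    rw [sub_neg_eq_add, add_sub_cancel_right] at h3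
    rw [sub_neg_eq_add, sub_add_cancel] at h4
    exact Submodule.sub_mem _ h3 h4
  obtain ⟨α, β, hT⟩ := H.tor ⁅D, E⁆ hpres
  -- eigenvalues
  have eig : ∀ (u : R →ₗ[ℂ] ℂ) (d : ℕ) (m : Fin r → ℤ) (e : ℂ),
      (∀ h ∈ 𝒜 (d, m), u (⁅D, E⁆ h) = e * u h) → ∀ h ∈ 𝒜 (d, m), u h ≠ 0 →
      e = (d : ℂ) * α + β m := by
    intro u d m e hu h hh hne
    obtain ⟨N, hN⟩ := hT d m h hh
    have h3 : ∀ N : ℕ, (fun x : R => ⁅D, E⁆ x - ((d : ℂ) * α + β m) • x)^[N] h ∈ 𝒜 (d, m) ∧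
        u ((fun x : R => ⁅D, E⁆ x - ((d : ℂ) * α + β m) • x)^[N] h) =
          (e - ((d : ℂ) * α + β m)) ^ N * u h := by
      intro N
      induction N with
      | zero => exact ⟨hh, by simp⟩
      | succ N ih =>
        rw [Function.iterate_succ_apply']
        refine ⟨Submodule.sub_mem _ (hpres _ _ _ ih.1) (Submodule.smul_mem _ _ ih.1), ?_⟩
        rw [map_sub, map_smul, hu _ ih.1, ih.2, smul_eq_mul, pow_succ]
        ring
    have h4 := (h3 N).2
    rw [hN, map_zero] at h4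
    by_contra h5
    exact mul_ne_zero (pow_ne_zero N (sub_ne_zero.2 h5)) hne h4.symm
  obtain ⟨f, hf, hfne⟩ := exists_deg_one_ne H.hX.gen z.nv z.fix
  obtain ⟨f', hf', hfne'⟩ := exists_deg_one_ne H.hX.gen z'.nv z'.fix
  have e1 : (n : ℂ) = ((1 : ℕ) : ℂ) * α + β z.ν := eig z.q.toLinearMap 1 z.ν n hb1 f hf hfne
  have e2 : -(n : ℂ) = ((1 : ℕ) : ℂ) * α + β z'.ν := by
    refine eig z'.q.toLinearMap 1 z'.ν (-(n : ℂ)) (fun h hh => ?_) f' hf' hfne'
    have h3 := hb2 h hh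
    have h4 : ⁅D, E⁆ h = -(⁅E, D⁆ h) := by
      rw [Derivation.commutator_apply, Derivation.commutator_apply, neg_sub]
    change z'.q (⁅D, E⁆ h) = _ * z'.q h
    rw [h4, map_neg, h3, neg_mul]
  have hβ : β χ = -2 := by
    have h3 : β z'.ν = β z.ν + n * β χ := by
      rw [hφ.nu, map_add, map_nsmul, nsmul_eq_mul]
    have h4 : (n : ℂ) * (β χ + 2) = 0 := by
      rw [h3] at e2
      linear_combination e1 - e2
    have h5 : (n : ℂ) ≠ 0 := by
      exact_mod_cast (by omega : n ≠ 0)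
    have h6 := (mul_eq_zero.1 h4).resolve_left h5
    linear_combination h6
  -- the value of the bracket at `z`
  obtain ⟨e0, he0⟩ := zero_value H z hpres
  have he0n : e0 = n := by
    have h3 := he0 1 _ f hf
    rw [hb1 f hf, Nat.cast_one, mul_one] at h3
    exact (mul_right_cancel₀ hfne h3).symm
  -- the second field
  obtain ⟨w, hw, hww, hwne⟩ := h2
  obtain ⟨W, hW, hWv⟩ := hL' z.q z.ν z.nv z.fix ⟨w, hw, hww, hwne⟩ w hw hww
  have hEW : ∀ x, ⁅E, W⁆ x = 0 := by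
    have h3 : H93.IsHField 𝒜 (-χ + -χ) ⁅E, W⁆ := by
      intro d m h hh
      rw [Derivation.commutator_apply]
      have h4 := hE _ _ _ (hW d m h hh)
      have h5 := hW _ _ _ (hE d m h hh)
      rw [sub_sub] at h4 h5
      exact Submodule.sub_mem _ h4 h5
    refine big_zero' H (c := -c) (B := c χ) ?_ hpos.le (fun ω hω => ?_) h3
    · rw [AddMonoidHom.neg_apply, map_add, map_neg]
      linarith
    · have := hmin ω hω
      rw [AddMonoidHom.neg_apply]
      linarith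
  have hS : ∀ d m, ∀ h ∈ 𝒜 (d, m), ⁅D, W⁆ h ∈ 𝒜 (d, m) := by
    intro d m h hh
    rw [Derivation.commutator_apply]
    have h3 := hD _ _ _ (hW d m h hh)
    have h4 := hW _ _ _ (hD d m h hh)
    rw [sub_neg_eq_add, add_sub_cancel_right] at h3
    rw [sub_neg_eq_add, sub_add_cancel] at h4
    exact Submodule.sub_mem _ h3 h4
  obtain ⟨s0, hs0⟩ := zero_value H z hS
  -- the relation at `z`
  have hrel : ∀ (d : ℕ) (m : Fin r → ℤ), ∀ h ∈ 𝒜 (d, m), w (⁅D, E⁆ h) = (n * d) * w h := by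
    intro d m h hh
    have h3 : z.q (E (⁅D, W⁆ h)) = 0 := hEz _
    have h4 : z.q (⁅D, W⁆ (E h)) = 0 := by
      rw [hs0 d _ _ (hE d m h hh), hEz, mul_zero]
    have h5 : ⁅D, E⁆ (W h) - W (⁅D, E⁆ h) = ⁅D, W⁆ (E h) - E (⁅D, W⁆ h) := by
      have h6 := hEW (D h)
      have h7 := congrArg D (hEW h)
      rw [Derivation.commutator_apply] at h6 h7
      rw [map_sub, map_zero] at h7
      simp only [Derivation.commutator_apply, map_sub]
      linear_combination h7 - h6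
    have h8 := congrArg z.q h5
    rw [map_sub, map_sub, h3, h4, sub_zero, he0 d _ _ (hW d m h hh), he0n, hWv, hWv] at h8
    linear_combination -h8
  obtain ⟨d, m, h, hh, hne⟩ := hwne 0
  rw [zero_mul, zero_mul] at hne
  have h3 := eig w d m (n * d) (fun h hh => hrel d m h hh) h hh hne
  have h4 := hww d m h hh hne
  rw [h4, map_add, map_nsmul, map_neg, hβ, nsmul_eq_mul] at h3
  rw [Nat.cast_one, one_mul] at e1
  have h5 : (2 : ℂ) = 0 := by
    rw [e1] at h3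
    linear_combination -h3
  exact two_ne_zero h5

end Vale.Agent.P280.H63Y
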